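import Vale.Agent.P043.Plane.System

/-!
A periodic solution of the plane system has no drift: it is invariant under `(900, 900 κ)`, hence
gives a colour indicator tiling by both shapes.
-/

namespace Vale.Agent.P043.Plane

open Vale.Agent.P043.Two (Piece PieceTiles colIdx)
open Vale.Agent.P043.Three (exists_int_diff)

/-- The translates in a line tile that meet one column have phases `a - κ x` differing by
integers. -/
theorem phase_int {κ : ℝ} {A : Set (ℤ × ℝ)} {S : Shape} (h : PieceTiles (lineT κ S) A) {n : ℤ}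
    {i j : Slot} {a b : ℝ} (hi : (n - (cellN S i : ℤ), a) ∈ A)
    (hj : (n - (cellN S j : ℤ), b) ∈ A) :
    ∃ k : ℤ, b - κ * ((n - (cellN S j : ℤ) : ℤ) : ℝ)
      = a - κ * ((n - (cellN S i : ℤ) : ℤ) : ℝ) + (k : ℝ) := by
  obtain ⟨k, hk⟩ := exists_int_diff (h.lineTiles (fun _ => rfl) n)
    (show (i, a) ∈ colIdx (lineT κ S) A n from hi) (show (j, b) ∈ colIdx (lineT κ S) A n from hj)
  refine ⟨k + colN S i - colN S j, ?_⟩
  simp only [lineT] at hk
  push_cast
  linarith [mul_sub κ (n : ℝ) (cellN S j : ℝ), mul_sub κ (n : ℝ) (cellN S i : ℝ)]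

variable {κ : ℝ} {A : Set (ℤ × ℝ)}

/-- Two translates in one column differ by an integer. -/
theorem col_int (h : Sys κ A) {x : ℤ} {a b : ℝ} (ha : (x, a) ∈ A) (hb : (x, b) ∈ A) :
    ∃ k : ℤ, b = a + (k : ℝ) := by
  obtain ⟨k, hk⟩ := phase_int h.l₁ (n := x) (i := i₀) (j := i₀) (a := a) (b := b)
    (by simpa [(cellN_zero sh₁).1] using ha) (by simpa [(cellN_zero sh₁).1] using hb)
  exact ⟨k, by linarith⟩

theorem cellN_slot_zero : cellN sh₁ i₀ = 0 := (cellN_zero sh₁).1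

/-- In the split tile the piece at the top of an `A`-piece is a piece `C`, `B` or `E`. -/
theorem follower (h : Sys κ A) (h0 : 0 < κ) (h1 : 1800 * κ < 1) {x : ℤ} {a : ℝ}
    (hx : (x, a) ∈ A) :
    ((x + 900, a + 900 * κ) ∈ A) ∨ ((x + 1800, a - 14) ∈ A) ∨
      ((x + 2700, a - 14 - 900 * κ) ∈ A) := by
  have hfrac : ∀ k : ℤ, (k : ℝ) ≠ 1 - 1800 * κ := fun k hk => by
    have e0 : ((0 : ℤ) : ℝ) < (k : ℝ) := by push_cast; linarith
    have e1 : (k : ℝ) < ((1 : ℤ) : ℝ) := by push_cast; linarith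
    have := Int.cast_lt.1 e0
    have := Int.cast_lt.1 e1
    omega
  have hpos : ∀ i, 0 < (splitT κ i).len := by
    rintro (i | j)
    · simp only [splitT]
      split_ifs <;> simp only [lineT] <;> linarith
    · simp only [splitT]
      split_ifs <;> dsimp only <;> linarith
  have hA : (Sum.inl i₀, a) ∈ colIdx (splitT κ) A x := by
    show (x - (splitT κ (.inl i₀)).cell, a) ∈ A
    simpa [splitT] using hx
  have eA : (splitT κ (.inl i₀)).lo = 0 ∧ (splitT κ (.inl i₀)).len = 1 - 1800 * κ := by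
    simp [splitT]
  obtain ⟨⟨q, s⟩, ⟨hq, q1, q2⟩, -⟩ := h.sp.exact hpos x (a + (1 - 1800 * κ))
  dsimp only at q1 q2
  have hlo : s + (splitT κ q).lo = a + (1 - 1800 * κ) := by
    by_contra hne
    have hlt : s + (splitT κ q).lo < a + (1 - 1800 * κ) := lt_of_le_of_ne q1 hne
    have hm := max_lt hlt (show a < a + (1 - 1800 * κ) by linarith)
    have := le_max_left (s + (splitT κ q).lo) a
    have := le_max_right (s + (splitT κ q).lo) a
    have e := (h.sp x).disj (q, s) hq (.inl i₀, a) hA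
      ((max (s + (splitT κ q).lo) a + (a + (1 - 1800 * κ))) / 2) (by dsimp only; linarith)
      (by dsimp only; linarith) (by dsimp only; linarith [eA.1])
      (by dsimp only; linarith [eA.1, eA.2])
    obtain ⟨rfl, rfl⟩ := Prod.mk.inj e
    linarith [eA.1, eA.2]
  have hq' : (x - (splitT κ q).cell, s) ∈ A := hq
  rcases q with i | j
  · by_cases hi0 : i = i₀
    · subst hi0
      simp only [splitT, if_pos, sub_zero] at hq' hlo
      obtain ⟨k, hk⟩ := col_int h hx hq'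
      exact absurd (by linarith) (hfrac k)
    by_cases hi9 : i = i₉
    · subst hi9
      have h90 : i₉ ≠ i₀ := hi0
      simp only [splitT, if_neg h90, if_pos, sub_neg_eq_add] at hq' hlo
      rw [show s = a + 900 * κ by linarith] at hq'
      exact Or.inl hq'
    · simp only [splitT, if_neg hi0, if_neg hi9, lineT] at hq' hlo
      obtain ⟨k, hk⟩ := phase_int h.l₁ (n := x) (i := i₀) (a := a)
        (by simpa [cellN_slot_zero] using hx) hq'
      rw [cellN_slot_zero] at hk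
      push_cast at hk
      refine absurd ?_ (hfrac (k + colN sh₁ i))
      push_cast
      linarith [mul_sub κ (x : ℝ) (cellN sh₁ i : ℝ), mul_sub κ (x : ℝ) 0]
  · by_cases hj : j = 0
    · subst hj
      simp only [splitT, if_pos, sub_neg_eq_add] at hq' hlo
      rw [show s = a - 14 by linarith] at hq'
      exact Or.inr (Or.inl hq')
    · simp only [splitT, if_neg hj, sub_neg_eq_add] at hq' hlo
      rw [show s = a - 14 - 900 * κ by linarith] at hq'
      exact Or.inr (Or.inr hq')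

/-- Each translate has a successor some `900 (c + 1)` cells further, whose phase is lower by
`1800 c κ` modulo integers. -/
theorem step (h : Sys κ A) (h0 : 0 < κ) (h1 : 1800 * κ < 1) (p : ↥A) :
    ∃ (p' : ↥A) (c : ℕ) (k : ℤ), p'.1.1 = p.1.1 + 900 * ((c : ℤ) + 1) ∧
      p'.1.2 - κ * (p'.1.1 : ℝ) =
        p.1.2 - κ * (p.1.1 : ℝ) - 1800 * κ * (c : ℝ) + (k : ℝ) := by
  obtain ⟨⟨x, a⟩, hx⟩ := p
  rcases follower h h0 h1 hx with e | e | e
  · exact ⟨⟨_, e⟩, 0, 0, by push_cast; ring, by push_cast; ring⟩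
  · exact ⟨⟨_, e⟩, 1, -14, by push_cast; ring, by push_cast; ring⟩
  · exact ⟨⟨_, e⟩, 2, -14, by push_cast; ring, by push_cast; ring⟩

/-- Every column `900` apart from an occupied one is occupied, with the same phase. -/
theorem phase_const (h : Sys κ A) (hκ : Irrational κ) (h0 : 0 < κ) (h1 : 1800 * κ < 1) {M : ℕ}
    (hM : 0 < M)
    (hper : ∀ z a, (z + 1800 * (M : ℤ), a + κ * (1800 * M)) ∈ A ↔ (z, a) ∈ A)
    {x : ℤ} {a : ℝ} (hx : (x, a) ∈ A) :
    ∃ φ : ℝ, ∀ i : ℤ, ∃ (b : ℝ) (k : ℤ), (x + 900 * i, b) ∈ A ∧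
      b - κ * ((x + 900 * i : ℤ) : ℝ) = φ + (k : ℝ) := by
  have perZ : ∀ (q : ℤ) z b, (z, b) ∈ A →
      (z + 1800 * (M : ℤ) * q, b + κ * (1800 * M) * (q : ℝ)) ∈ A := by
    intro q z b hb
    induction q using Int.induction_on with
    | zero => simpa using hb
    | succ n ih =>
      have := (hper _ _).2 ih
      convert this using 2 <;> push_cast <;> ring
    | pred n ih =>
      refine (hper _ _).1 ?_
      convert ih using 2 <;> push_cast <;> ring
  choose g c k hg1 hg2 using step h h0 h1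
  set p : ℕ → ↥A := fun j => g^[j] ⟨(x, a), hx⟩ with hp
  have hsucc : ∀ j, p (j + 1) = g (p j) := fun j => by
    simp only [hp, Function.iterate_succ_apply']
  have hpos : ∀ j d, (p (j + d)).1.1 = (p j).1.1 +
      900 * (((∑ i ∈ Finset.range d, c (p (j + i)) : ℕ) : ℤ) + d) := by
    intro j d
    induction d with
    | zero => simp
    | succ d ih =>
      rw [← add_assoc, hsucc, hg1, ih, Finset.sum_range_succ]
      push_cast; ring
  have hph : ∀ j d, ∃ n : ℤ, (p (j + d)).1.2 - κ * ((p (j + d)).1.1 : ℝ) =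
      (p j).1.2 - κ * ((p j).1.1 : ℝ) -
        1800 * κ * ((∑ i ∈ Finset.range d, c (p (j + i)) : ℕ) : ℝ) + (n : ℝ) := by
    intro j d
    induction d with
    | zero => exact ⟨0, by simp⟩
    | succ d ih =>
      obtain ⟨n, hn⟩ := ih
      refine ⟨n + k (p (j + d)), ?_⟩
      rw [← add_assoc, hsucc, hg2, hn, Finset.sum_range_succ]
      push_cast; ring
  -- two members of the path in one class modulo the period
  have hL : (0 : ℤ) < 1800 * (M : ℤ) := by exact_mod_cast (show 0 < 1800 * M by omega)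
  have : NeZero (1800 * M) := ⟨by omega⟩
  obtain ⟨j, d, hd, hmod⟩ : ∃ j d, 0 < d ∧
      (((p j).1.1 : ℤ) : ZMod (1800 * M)) = ((p (j + d)).1.1 : ℤ) := by
    obtain ⟨u, v, huv, he⟩ := Finite.exists_ne_map_eq_of_infinite
      fun j : ℕ => (((p j).1.1 : ℤ) : ZMod (1800 * M))
    rcases lt_or_gt_of_ne huv with hlt | hlt
    · exact ⟨u, v - u, by omega, by rw [Nat.add_sub_cancel' hlt.le]; exact he⟩
    · exact ⟨v, u - v, by omega, by rw [Nat.add_sub_cancel' hlt.le]; exact he.symm⟩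
  obtain ⟨q, hq⟩ := (ZMod.intCast_eq_intCast_iff_dvd_sub _ _ _).1 hmod
  push_cast at hq
  obtain ⟨n, hn⟩ := hph j d
  set C := ∑ i ∈ Finset.range d, c (p (j + i)) with hC
  have hmem := perZ q _ _ (p j).2
  rw [show (p j).1.1 + 1800 * (M : ℤ) * q = (p (j + d)).1.1 by linarith] at hmem
  obtain ⟨m, hm⟩ := col_int h hmem (p (j + d)).2
  have hC0 : C = 0 := by
    by_contra hne
    have hcast : ((p (j + d)).1.1 : ℝ) = (p j).1.1 + 1800 * (M : ℝ) * (q : ℝ) := by
      have : (p (j + d)).1.1 = (p j).1.1 + 1800 * (M : ℤ) * q := by linarith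
      rw [this]; push_cast; ring
    have e : κ * ((1800 * C : ℕ) : ℝ) = ((n - m : ℤ) : ℝ) := by
      rw [hcast] at hn
      push_cast
      linarith [hm, mul_add κ ((p j).1.1 : ℝ) (1800 * (M : ℝ) * (q : ℝ))]
    exact (Int.not_irrational (n - m)) (e ▸ hκ.mul_natCast (by omega))
  -- hence the path has unit steps, and covers all columns of the progression
  have hcz : ∀ i < d, c (p (j + i)) = 0 := fun i hi => by
    have := Finset.sum_eq_zero_iff.1 hC0 i (Finset.mem_range.2 hi)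
    exact this
  have hzero : ∀ i ≤ d, (∑ l ∈ Finset.range i, c (p (j + l))) = 0 := fun i hi =>
    Finset.sum_eq_zero fun l hl => hcz l (by have := Finset.mem_range.1 hl; omega)
  have hdq : (d : ℤ) = 2 * (M : ℤ) * q := by
    have := hpos j d
    rw [hzero d le_rfl] at this
    push_cast at this
    linarith
  obtain ⟨φ, hφ⟩ : ∃ φ : ℝ, φ = (p j).1.2 - κ * ((p j).1.1 : ℝ) := ⟨_, rfl⟩
  obtain ⟨o, ho⟩ : ∃ o : ℤ, (p j).1.1 = x + 900 * o := by
    have := hpos 0 j
    rw [zero_add] at this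
    exact ⟨_, this⟩
  refine ⟨φ, fun i => ?_⟩
  -- `i - o` modulo `d`
  set r := ((i - o) % (d : ℤ)).toNat with hr
  have hd' : (0 : ℤ) < (d : ℤ) := by exact_mod_cast hd
  have hr0 : (r : ℤ) = (i - o) % (d : ℤ) := Int.toNat_of_nonneg (Int.emod_nonneg _ hd'.ne')
  have hrd : r ≤ d := by
    have := Int.emod_lt_of_pos (i - o) hd'
    omega
  set e := (i - o) / (d : ℤ) with he
  have hie : i = o + (r : ℤ) + (d : ℤ) * e := by
    rw [hr0]
    linarith [Int.mul_ediv_add_emod (i - o) (d : ℤ)]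
  have hmem' := perZ (q * e) _ _ (p (j + r)).2
  have hpr := hpos j r
  obtain ⟨n', hn'⟩ := hph j r
  rw [hzero r hrd] at hpr hn'
  push_cast at hn' hpr
  have hcol : (p (j + r)).1.1 + 1800 * (M : ℤ) * (q * e) = x + 900 * i := by
    rw [hpr, ho, hie, hdq]; ring
  rw [hcol] at hmem'
  refine ⟨_, n', hmem', ?_⟩
  rw [← hcol, hφ]
  push_cast
  linarith [mul_add κ (((p (j + r)).1.1 : ℤ) : ℝ) (1800 * (M : ℝ) * ((q : ℝ) * (e : ℝ)))]

/-- A periodic solution is invariant under `(900, 900 κ)`. -/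
theorem drift_invariant {κ : ℝ} {A : Set (ℤ × ℝ)} (h : Sys κ A) (hκ : Irrational κ) (h0 : 0 < κ)
    (h1 : 1800 * κ < 1) {M : ℕ} (hM : 0 < M)
    (hper : ∀ z a, (z + 1800 * (M : ℤ), a + κ * (1800 * M)) ∈ A ↔ (z, a) ∈ A) (x : ℤ) (a : ℝ) :
    (x + 900, a + 900 * κ) ∈ A ↔ (x, a) ∈ A := by
  have fwd : ∀ z b, (z, b) ∈ A → (z + 900, b + 900 * κ) ∈ A := by
    intro z b hb
    obtain ⟨φ, hφ⟩ := phase_const h hκ h0 h1 hM hper hb
    obtain ⟨b0, k0, hb0, e0⟩ := hφ 0
    rw [mul_zero, add_zero] at hb0 e0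
    obtain ⟨j0, ej0⟩ := col_int h hb hb0
    have no : ∀ (i : ℤ) (s : ℝ) (N : ℕ), N ≠ 0 → (z + 900 * i, s) ∈ A → ∀ t : ℤ,
        (s - κ * ((z + 900 * i : ℤ) : ℝ)) = b - κ * (z : ℝ) - κ * N + (t : ℝ) → False := by
      intro i s N hN hs t ht
      obtain ⟨bi, ki, hbi, ei⟩ := hφ i
      obtain ⟨ji, eji⟩ := col_int h hs hbi
      have e : κ * (N : ℝ) = ((t + ji - ki + k0 - j0 : ℤ) : ℝ) := by
        push_cast
        linarith
      exact (Int.not_irrational _) (e ▸ hκ.mul_natCast hN)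
    rcases follower h h0 h1 hb with e | e | e
    · exact e
    · exact (no 2 (b - 14) 1800 (by norm_num) (by simpa using e) (-14)
        (by push_cast; ring)).elim
    · exact (no 3 (b - 14 - 900 * κ) 3600 (by norm_num) (by simpa using e) (-14)
        (by push_cast; ring)).elim
  refine ⟨fun hx => ?_, fwd x a⟩
  have hn : ∀ i : ℕ, (x + 900 * ((i : ℤ) + 1), a + 900 * κ * ((i : ℝ) + 1)) ∈ A := by
    intro i
    induction i with
    | zero => simpa using hx
    | succ i ih =>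
      have := fwd _ _ ih
      convert this using 2 <;> push_cast <;> ring
  have := hn (2 * M - 1)
  refine (hper x a).1 ?_
  have e : ((2 * M - 1 : ℕ) : ℤ) + 1 = 2 * (M : ℤ) := by omega
  have e' : ((2 * M - 1 : ℕ) : ℝ) + 1 = 2 * (M : ℝ) := by exact_mod_cast e
  rw [e, e'] at this
  convert this using 2 <;> ring

open Classical in
/-- A periodic solution gives a colour indicator tiling by both shapes. -/
theorem exists_colour_indicator {κ : ℝ} {A : Set (ℤ × ℝ)} (h : Sys κ A) (hκ : Irrational κ)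
    (h0 : 0 < κ) (h1 : 1800 * κ < 1) {M : ℕ} (hM : 0 < M)
    (hper : ∀ z a, (z + 1800 * (M : ℤ), a + κ * (1800 * M)) ∈ A ↔ (z, a) ∈ A) {P : ℕ}
    (hP : ∀ z a, (z, a + (P : ℝ)) ∈ A ↔ (z, a) ∈ A) :
    ∃ f : ℤ → ℤ → ℕ, (∀ x c, f (x + 900) c = f x c) ∧ (∀ x c, f x (c + P) = f x c) ∧
      ∀ S : Shape, (S = sh₁ ∨ S = sh₂) →
        ∀ n w : ℤ, ∑ i : Slot, f (n - cellN S i) (w - colN S i) = 1 := by
  refine ⟨fun x c => if ∃ a : ℝ, (x, a) ∈ A ∧ ⌊a - κ * (x : ℝ)⌋ = c then 1 else 0, ?_, ?_, ?_⟩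
  · intro x c
    refine if_congr ⟨fun ⟨a, ha, e⟩ => ?_, fun ⟨a, ha, e⟩ => ?_⟩ rfl rfl
    · refine ⟨a - 900 * κ, (drift_invariant h hκ h0 h1 hM hper x _).1 (by simpa using ha), ?_⟩
      rw [← e]; congr 1; push_cast; ring
    · refine ⟨a + 900 * κ, (drift_invariant h hκ h0 h1 hM hper x a).2 ha, ?_⟩
      rw [← e]; congr 1; push_cast; ring
  · intro x c
    refine if_congr ⟨fun ⟨a, ha, e⟩ => ?_, fun ⟨a, ha, e⟩ => ?_⟩ rfl rfl
    · refine ⟨a - P, (hP x _).1 (by simpa using ha), ?_⟩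
      rw [show a - (P : ℝ) - κ * x = a - κ * x - ((P : ℤ) : ℝ) by push_cast; ring,
        Int.floor_sub_intCast]
      omega
    · refine ⟨a + P, (hP x a).2 ha, ?_⟩
      rw [show a + (P : ℝ) - κ * x = a - κ * x + ((P : ℤ) : ℝ) by push_cast; ring,
        Int.floor_add_intCast]
      omega
  · intro S hS n w
    have hl : PieceTiles (lineT κ S) A := by
      rcases hS with rfl | rfl
      exacts [h.l₁, h.l₂]
    obtain ⟨⟨i₁, s₁⟩, ⟨hi₁, -⟩, -⟩ := hl.exact (fun _ => one_pos) n 0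
    set φ := Int.fract (s₁ - κ * ((n - (cellN S i₁ : ℤ) : ℤ) : ℝ)) with hφ
    have hfl : ∀ i b, (n - (cellN S i : ℤ), b) ∈ A →
        (b - κ * ((n - (cellN S i : ℤ) : ℤ) : ℝ)) =
          (⌊b - κ * ((n - (cellN S i : ℤ) : ℤ) : ℝ)⌋ : ℝ) + φ := by
      intro i b hb
      obtain ⟨k, hk⟩ := phase_int hl hi₁ hb
      rw [hφ, ← Int.fract_add_intCast _ k, ← hk]
      exact (Int.floor_add_fract _).symm
    have hf0 : 0 ≤ φ ∧ φ < 1 := ⟨Int.fract_nonneg _, Int.fract_lt_one _⟩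
    obtain ⟨⟨i, b⟩, ⟨hib, b1, b2⟩, hu⟩ :=
      hl.exact (fun _ => one_pos) n (κ * (n : ℝ) + (w : ℝ) + φ)
    have hb : (n - (cellN S i : ℤ), b) ∈ A := hib
    have hwit : ⌊b - κ * ((n - (cellN S i : ℤ) : ℤ) : ℝ)⌋ = w - (colN S i : ℤ) := by
      have e := hfl i b hb
      generalize ⌊b - κ * ((n - (cellN S i : ℤ) : ℤ) : ℝ)⌋ = z at e ⊢
      simp only [lineT] at b1 b2
      push_cast at e
      have e1 : ((z + colN S i : ℤ) : ℝ) < ((w + 1 : ℤ) : ℝ) := by
        push_cast; linarith [mul_sub κ (n : ℝ) (cellN S i : ℝ)]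
      have e2 : ((w : ℤ) : ℝ) < ((z + colN S i + 1 : ℤ) : ℝ) := by
        push_cast; linarith [mul_sub κ (n : ℝ) (cellN S i : ℝ)]
      have := Int.cast_lt.1 e1
      have := Int.cast_lt.1 e2
      omega
    rw [Finset.sum_eq_single i]
    · exact if_pos ⟨b, hb, hwit⟩
    · intro i' _ hne
      refine if_neg fun ⟨b', hb', e'⟩ => hne ?_
      have e := hfl i' b' hb'
      rw [e'] at e
      push_cast at e
      refine congrArg Prod.fst (hu (i', b') ⟨hb', ?_, ?_⟩) <;> simp only [lineT] <;>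
        linarith [mul_sub κ (n : ℝ) (cellN S i' : ℝ)]
    · exact fun hne => absurd (Finset.mem_univ i) hne

end Vale.Agent.P043.Plane
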