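import Vale.Agent.P043.Plane.Seed

/-!
Counting modulo powers of two: the two shapes have neither a common tiling by full columns nor a
common tiling by coloured cells that is invariant under a translation by `900` cells.
-/

namespace Vale.Agent.P043.Plane

open Finset

/-- The sum of a function over a full period does not depend on the start. -/
theorem sum_range_shift (φ : ℕ → ℕ) (n : ℕ) (h : φ n = φ 0) :
    ∑ j ∈ range n, φ (j + 1) = ∑ j ∈ range n, φ j := by
  have h1 := sum_range_succ' φ n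
  have h2 := sum_range_succ φ n
  omega

/-- A function with a `2`-power period whose sums along odd progressions are constant is constant
along them. -/
theorem odd_sum_const {G : Type*} [AddCommGroup G] (g : G → ℕ) {m : ℕ}
    (hg : ∀ b x, g (x + (2 ^ m : ℕ) • b) = g x) {n : ℕ} (hn : Odd n) (b : G) (K : ℕ)
    (h : ∀ x, ∑ j : Fin n, g (x - (j : ℕ) • b) = K) (x : G) : n * g x = K := by
  have h' : ∀ y, ∑ j ∈ range n, g (y - j • b) = K := fun y => by
    rw [← h y, Fin.sum_univ_eq_sum_range (fun j => g (y - j • b))]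
  have p1 : Function.Periodic g ((n : ℤ) • b) := fun y => by
    have e1 := sum_range_succ' (fun j : ℕ => g (y + (n : ℤ) • b - j • b)) n
    have e2 := sum_range_succ (fun j : ℕ => g (y + (n : ℤ) • b - j • b)) n
    simp only [succ_nsmul, zero_nsmul, sub_zero, natCast_zsmul, add_sub_cancel_right] at e1 e2 ⊢
    have a1 := h' (y + n • b)
    have a2 := h' (y + n • b - b)
    have e3 : ∑ j ∈ range n, g (y + n • b - (j • b + b)) = K := by
      rw [← a2]; refine sum_congr rfl fun j _ => congrArg g ?_; abel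
    omega
  have p2 : Function.Periodic g (((2 ^ m : ℕ) : ℤ) • b) := fun y => by
    rw [natCast_zsmul]; exact hg b y
  have hb : Function.Periodic g b := by
    have hc : Nat.Coprime n (2 ^ m) := hn.coprime_two_right.pow_right m
    have he := Int.gcd_eq_gcd_ab (n : ℤ) ((2 ^ m : ℕ) : ℤ)
    rw [Int.gcd_natCast_natCast, hc, Nat.cast_one] at he
    have := (p1.zsmul (Int.gcdA (n : ℤ) ((2 ^ m : ℕ) : ℤ))).add_period
      (p2.zsmul (Int.gcdB (n : ℤ) ((2 ^ m : ℕ) : ℤ)))
    rwa [smul_smul, smul_smul, ← add_smul, mul_comm, mul_comm (Int.gcdB _ _), ← he, one_smul]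
      at this
  have : ∑ j ∈ range n, g x = K := by
    rw [← h' x]
    exact sum_congr rfl fun j _ => ((hb.nsmul j).sub_eq x).symm
  simpa using this

/-- Two odd levels can be removed from an equation. -/
theorem remove_three_five {G : Type*} [AddCommGroup G] (H : G → ℕ) {m : ℕ}
    (hH : ∀ b x, H (x + (2 ^ m : ℕ) • b) = H x) (s t : G) (K : ℕ)
    (h : ∀ x, ∑ b : Fin 3, ∑ c : Fin 5, H (x - (b : ℕ) • s - (c : ℕ) • t) = K) (x : G) :
    15 * H x = K := by
  have h3 : ∀ y, 3 * ∑ c : Fin 5, H (y - (c : ℕ) • t) = K :=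
    fun y => odd_sum_const (fun y => ∑ c : Fin 5, H (y - (c : ℕ) • t))
      (fun b y => sum_congr rfl fun c _ => by rw [add_sub_right_comm, hH]) (by decide) s K h y
  have h5 : ∀ y, ∑ c : Fin 5, H (y - (c : ℕ) • t) = ∑ c : Fin 5, H (0 - (c : ℕ) • t) :=
    fun y => by have := h3 y; have := h3 0; omega
  have := odd_sum_const H hH (by decide) t _ h5 x
  have := h3 0
  omega

/-- A sum over the slots, the odd levels outside. -/
theorem sum_slot (F : Slot → ℕ) :
    ∑ i : Slot, F i = ∑ b : Fin 3, ∑ c : Fin 5,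
      (F (0, b, c, 0) + F (0, b, c, 1) + F (1, b, c, 0) + F (1, b, c, 1)) := by
  simp only [Fintype.sum_prod_type, Fin.sum_univ_two, Fin.sum_univ_three, Fin.sum_univ_five]
  omega

/-- No common tiling by full columns is periodic. -/
theorem no_column_indicator {M : ℕ} (hM : 0 < M) (f : ℤ → ℕ)
    (hper : ∀ x, f (x + 1800 * (M : ℤ)) = f x)
    (h : ∀ S : Shape, (S = sh₁ ∨ S = sh₂) → ∀ n : ℤ, ∑ i : Slot, f (n - cellN S i) = 1) :
    False := by
  obtain ⟨l, Q, hQ, hL⟩ := Nat.exists_eq_two_pow_mul_odd (n := 1800 * M) (by omega)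
  have hL' : (1800 : ℤ) * M = 2 ^ l * Q := by exact_mod_cast hL
  let g : ℤ → ℕ := fun x => ∑ j ∈ range Q, f (x + 2 ^ l * (j : ℤ))
  have g0 : Function.Periodic g (((2 ^ l : ℕ) : ℤ)) := fun x => by
    have := sum_range_shift (fun j : ℕ => f (x + 2 ^ l * (j : ℤ))) Q (by simp [← hL', hper])
    refine Eq.trans (sum_congr rfl fun j _ => congrArg f ?_) this
    push_cast; ring
  have hg : ∀ b x : ℤ, g (x + (2 ^ l : ℕ) • b) = g x := fun b x => by
    have := g0.zsmul b x
    rwa [zsmul_eq_mul, Int.cast_id, mul_comm, ← nsmul_eq_mul] at this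
  have key : ∀ S : Shape, (S = sh₁ ∨ S = sh₂) → ∀ y : ℤ,
      15 * (g y + g (y - 900) + g (y - S.x₂) + g (y - S.x₂ - 900)) = Q := by
    intro S hS
    refine remove_three_five (m := l) (fun y => g y + g (y - 900) + g (y - S.x₂) + g (y - S.x₂ - 900))
      (fun b y => by simp only [add_sub_right_comm, hg]) (S.x₃ : ℤ) (S.x₅ : ℤ) Q fun y => ?_
    calc _ = ∑ i : Slot, g (y - cellN S i) := by
          rw [sum_slot]
          refine sum_congr rfl fun b _ => sum_congr rfl fun c _ => ?_
          congr 1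
          · congr 1
            · congr 1 <;> congr 1 <;> simp [cellN] <;> ring
            · congr 1; simp [cellN]; ring
          · congr 1; simp [cellN]; ring
      _ = ∑ j ∈ range Q, ∑ i : Slot, f (y + 2 ^ l * (j : ℤ) - cellN S i) := by
          rw [sum_comm]
          exact sum_congr rfl fun i _ => sum_congr rfl fun j _ => congrArg f (by ring)
      _ = Q := by simp [h S hS]
  have k1 := key sh₁ (.inl rfl)
  have k2 := key sh₂ (.inr rfl)
  simp only [sh₁, sh₂, Nat.cast_ofNat] at k1 k2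
  have a := k1 450; have b := k2 450; have c := k1 225
  norm_num at a b c
  obtain ⟨w, hw⟩ := hQ
  omega

/-- No common tiling by coloured cells is invariant under `900` cells and a colour period. -/
theorem no_colour_indicator {P : ℕ} (hP : 0 < P) (f : ℤ → ℤ → ℕ)
    (h900 : ∀ x c, f (x + 900) c = f x c) (hper : ∀ x c, f x (c + P) = f x c)
    (h : ∀ S : Shape, (S = sh₁ ∨ S = sh₂) →
      ∀ n w : ℤ, ∑ i : Slot, f (n - cellN S i) (w - colN S i) = 1) : False := by
  obtain ⟨p, Q, hQ, hL⟩ := Nat.exists_eq_two_pow_mul_odd (n := P) (by omega)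
  have hL' : (P : ℤ) = 2 ^ p * Q := by exact_mod_cast hL
  -- the number `225` of steps `4` in `900`, kept opaque
  obtain ⟨W, hW⟩ : ∃ W : ℕ, W = 225 := ⟨_, rfl⟩
  let g : ℤ × ℤ → ℕ := fun z =>
    ∑ i ∈ range W, ∑ j ∈ range Q, f (z.1 + 4 * (i : ℤ)) (z.2 + 2 ^ p * (j : ℤ))
  have gx : Function.Periodic g ((4, 0) : ℤ × ℤ) := fun z => by
    have := sum_range_shift
      (fun i : ℕ => ∑ j ∈ range Q, f (z.1 + 4 * (i : ℤ)) (z.2 + 2 ^ p * (j : ℤ))) W
      (sum_congr rfl fun j _ => by
        rw [show z.1 + 4 * (W : ℤ) = z.1 + 4 * ((0 : ℕ) : ℤ) + 900 by subst hW; push_cast; ring, h900])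
    refine Eq.trans (sum_congr rfl fun i _ => sum_congr rfl fun j _ => ?_) this
    congr 1 <;> simp <;> ring
  have gc : Function.Periodic g ((0, 2 ^ p) : ℤ × ℤ) := fun z => by
    refine sum_congr rfl fun i _ => ?_
    have := sum_range_shift (fun j : ℕ => f (z.1 + 4 * (i : ℤ)) (z.2 + 2 ^ p * (j : ℤ))) Q
      (by simp [← hL', hper])
    refine Eq.trans (sum_congr rfl fun j _ => ?_) this
    congr 1 <;> simp <;> ring
  have gper : ∀ (u v : ℤ) (z : ℤ × ℤ), g (z + (4 * u, 2 ^ p * v)) = g z := fun u v z => by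
    have := ((gx.zsmul u).add_period (gc.zsmul v)) z
    simpa [mul_comm] using this
  have hg : ∀ b z : ℤ × ℤ, g (z + (2 ^ (p + 2) : ℕ) • b) = g z := fun b z => by
    rw [← gper (2 ^ p * b.1) (4 * b.2) z]
    congr 1; ext <;> simp [pow_add] <;> ring
  have key : ∀ S : Shape, (S = sh₁ ∨ S = sh₂) → ∀ y : ℤ × ℤ,
      15 * (g y + g (y - (900, (S.d : ℤ))) + g (y - ((S.x₂ : ℤ), (S.y₂ : ℤ))) +
        g (y - ((S.x₂ : ℤ), (S.y₂ : ℤ)) - (900, (S.d : ℤ)))) = W * Q := by
    intro S hS
    refine remove_three_five (m := p + 2) (fun y => g y + g (y - (900, (S.d : ℤ))) +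
        g (y - ((S.x₂ : ℤ), (S.y₂ : ℤ))) + g (y - ((S.x₂ : ℤ), (S.y₂ : ℤ)) - (900, (S.d : ℤ))))
      (fun b y => by simp only [add_sub_right_comm, hg]) ((S.x₃ : ℤ), (S.y₃ : ℤ))
      ((S.x₅ : ℤ), (S.y₅ : ℤ)) _ fun y => ?_
    calc _ = ∑ i : Slot, g (y - ((cellN S i : ℤ), (colN S i : ℤ))) := by
          rw [sum_slot]
          refine sum_congr rfl fun b _ => sum_congr rfl fun c _ => ?_
          congr 1
          · congr 1
            · congr 1 <;> congr 1 <;> ext <;> simp [cellN, colN] <;> ring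
            · congr 1; ext <;> simp [cellN, colN] <;> ring
          · congr 1; ext <;> simp [cellN, colN] <;> ring
      _ = ∑ i ∈ range W, ∑ j ∈ range Q, ∑ s : Slot,
            f (y.1 + 4 * (i : ℤ) - cellN S s) (y.2 + 2 ^ p * (j : ℤ) - colN S s) := by
          rw [sum_comm]
          refine sum_congr rfl fun i _ => ?_
          rw [sum_comm]
          refine sum_congr rfl fun j _ => sum_congr rfl fun s _ => ?_
          congr 1 <;> simp <;> ring
      _ = W * Q := by simp [h S hS]
  let u : ℤ → ℤ → ℕ := fun x c => g (x, c)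
  have hu : ∀ x k c, u (x + 4 * k) c = u x c := fun x k c => by
    have := gper k 0 (x, c); simpa using this
  have k1 := fun x c => key sh₁ (.inl rfl) (x, c)
  have k2 := fun x c => key sh₂ (.inr rfl) (x, c)
  simp only [sh₁, sh₂, Nat.cast_ofNat, Prod.mk_sub_mk] at k1 k2
  -- rows of the first shape at the classes `0, 1, 2, 3`, of the second at `0, 1`
  have a0 := k1 900 30; have a1 := k1 901 30; have a2 := k1 902 30; have a3 := k1 903 30
  have b0 := k2 900 30; have b1 := k2 901 30
  have c0 := k1 900 15; have c1 := k1 901 15; have c2 := k1 902 15; have c3 := k1 903 15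
  have d0 := k2 900 15; have d1 := k2 901 15
  norm_num at a0 a1 a2 a3 b0 b1 c0 c1 c2 c3 d0 d1
  have R : ∀ x c, u x c = u (x % 4) c := fun x c => by
    conv_lhs => rw [← Int.emod_add_mul_ediv x 4]
    exact hu _ _ _
  simp only [show ∀ x c : ℤ, g (x, c) = u (x % 4) c from fun x c => R x c]
    at a0 a1 a2 a3 b0 b1 c0 c1 c2 c3 d0 d1
  norm_num at a0 a1 a2 a3 b0 b1 c0 c1 c2 c3 d0 d1
  subst hW
  obtain ⟨w, hw⟩ := hQ
  omega

end Vale.Agent.P043.Plane
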