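import Vale.Agent.P043.Plane.Stack
import Vale.Agent.P043.Plane.Drift
import Vale.Agent.P043.Plane.Parity

/-!
The plane system has no periodic solution: either all columns are stacks, or the translates are
invariant under `(900, 900 κ)`, and neither kind fits both line tiles.
-/

namespace Vale.Agent.P043.Plane

open Vale.Agent.P043.Three (exists_int_diff)

/-- The translations leaving a set invariant. -/
def periods (A : Set (ℤ × ℝ)) : AddSubgroup (ℤ × ℝ) where
  carrier := {g | ∀ p, p + g ∈ A ↔ p ∈ A}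
  add_mem' := fun {g g'} hg hg' s => by rw [← add_assoc, hg', hg]
  zero_mem' := fun s => by simp
  neg_mem' := fun {g} hg s => by simpa using (hg (s + -g)).symm

theorem mem_periods {A : Set (ℤ × ℝ)} {M : ℤ} {τ : ℝ} :
    (M, τ) ∈ periods A ↔ ∀ z a, (z + M, a + τ) ∈ A ↔ (z, a) ∈ A :=
  ⟨fun h z a => h (z, a), fun h p => h p.1 p.2⟩

/-- A vertical period is an integer. -/
theorem Sys.int_period {κ : ℝ} {A : Set (ℤ × ℝ)} (hA : Sys κ A) {h : ℝ}
    (hh : ((0 : ℤ), h) ∈ periods A) : ∃ k : ℤ, h = k := by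
  obtain ⟨⟨i, b⟩, hb, -⟩ := (hA.l₁ 0).cover 0 1 one_pos
  set x := 0 - ((cellN sh₁ i : ℤ)) with hx
  have hb' : (x, b) ∈ A := hb
  have hb'' : (x, b + h) ∈ A := by simpa using (hh (x, b)).2 hb'
  have m1 : (i₀, b) ∈ Two.colIdx (lineT κ sh₁) A x := by
    simpa [Two.colIdx, lineT, (cellN_zero sh₁).1] using hb'
  have m2 : (i₀, b + h) ∈ Two.colIdx (lineT κ sh₁) A x := by
    simpa [Two.colIdx, lineT, (cellN_zero sh₁).1] using hb''
  obtain ⟨k, hk⟩ := exists_int_diff (hA.l₁.lineTiles (fun _ => rfl) x) m1 m2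
  exact ⟨k, by dsimp only at hk; linarith⟩

/-- **No solution of the plane system has two independent periods.** -/
theorem no_period {κ : ℝ} (hκ : Irrational κ) (h0 : 0 < κ) (h1 : 1800 * κ < 1) :
    Two.NoPeriod (lineT κ sh₁) (tiles κ) := by
  intro A hA M τ h hM hh hper hperh
  have hS := sys_of_solves hA
  have hv : ((0 : ℤ), h) ∈ periods A := mem_periods.2 fun z a => by simpa using hperh z a
  obtain ⟨k, rfl⟩ := hS.int_period hv
  obtain ⟨P, rfl⟩ : ∃ P : ℕ, k = P := Int.eq_ofNat_of_zero_le (by exact_mod_cast hh.le)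
  have hP : 0 < P := by exact_mod_cast hh
  obtain ⟨N, rfl⟩ : ∃ N : ℕ, M = N := Int.eq_ofNat_of_zero_le hM.le
  have hN : 0 < N := by exact_mod_cast hM
  have hg : ((1800 * (N : ℤ)), 1800 * τ) ∈ periods A := by
    have := (periods A).nsmul_mem (mem_periods.2 hper) 1800
    simpa using this
  by_cases hs : Irrational (1800 * τ - κ * (1800 * N))
  · obtain ⟨f, f1, f2⟩ := exists_column_indicator hS hN hs (mem_periods.1 hg)
    exact no_column_indicator hN f f1 f2
  obtain ⟨q, hq⟩ : ∃ q : ℚ, (q : ℝ) = 1800 * τ - κ * (1800 * N) := by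
    simpa [Irrational, Set.mem_range] using hs
  have hden : (q : ℝ) * q.den = q.num := by exact_mod_cast q.mul_den_eq_num
  have hL : ((1800 * ((q.den * P * N : ℕ) : ℤ)), κ * (1800 * ((q.den * P * N : ℕ) : ℝ))) ∈
      periods A := by
    have := (periods A).sub_mem ((periods A).nsmul_mem hg (q.den * P))
      ((periods A).zsmul_mem hv q.num)
    convert this using 1
    ext
    · simp; ring
    · simp only [Prod.snd_sub, nsmul_eq_mul, zsmul_eq_mul, Prod.snd_mul, Prod.snd_natCast, Prod.snd_intCast, Nat.cast_mul,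
        Int.cast_natCast]
      linear_combination (q.den : ℝ) * P * hq - (P : ℝ) * hden
  obtain ⟨f, f1, f2, f3⟩ := exists_colour_indicator hS hκ h0 h1
    (M := q.den * P * N) (by have := q.pos; positivity) (mem_periods.1 hL) (P := P)
    (fun z a => by simpa using hperh z a)
  exact no_colour_indicator hP f f1 f2 f3

end Vale.Agent.P043.Plane
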