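import Vale.Agent.P043.Plane.Seed

/-!
The seed tables read as a statement: every colour of every class is met by exactly one slot.
-/

namespace Vale.Agent.P043.Plane

theorem checks₁ : ∀ r < 18, checkBlock sh₁ r = true := by decide +kernel

theorem checks₂ : ∀ r < 18, checkBlock sh₂ r = true := by decide +kernel

theorem maskN_lt (x : ℕ) : maskN x < 2 ^ 60 := by
  unfold maskN
  split
  · decide
  · exact Nat.and_lt_two_pow _ (by decide)

theorem fullMask_testBit (v : ℕ) : fullMask.testBit v = decide (v < 60) :=
  Nat.testBit_two_pow_sub_one 60 v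

theorem rot_testBit {m t v : ℕ} (hm : m < 2 ^ 60) (ht : t < 60) (hv : v < 60) :
    (rot m t).testBit v = m.testBit ((v + 60 - t) % 60) := by
  simp only [rot, Nat.testBit_and, Nat.testBit_or, Nat.testBit_shiftLeft, Nat.testBit_shiftRight,
    fullMask_testBit, hv, decide_true, Bool.and_true]
  rcases Nat.lt_or_ge v t with h | h
  · rw [decide_eq_false (by omega), show (v + 60 - t) % 60 = 60 - t + v by omega]
    simp
  · have h2 : m.testBit (60 - t + v) = false :=
      Nat.testBit_lt_two_pow (lt_of_lt_of_le hm (Nat.pow_le_pow_right (by norm_num) (by omega)))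
    rw [decide_eq_true (show v ≥ t from h), h2, show (v + 60 - t) % 60 = v - t by omega]
    simp

theorem exactly_count : ∀ (l : List ℕ) (acc : ℕ), exactly l acc = true → ∀ v < 60,
    (l.countP fun m => m.testBit v) + (if acc.testBit v then 1 else 0) = 1
  | [], acc, h, v, hv => by
    simp only [exactly, beq_iff_eq] at h
    subst h
    simp [fullMask_testBit, hv]
  | m :: l, acc, h, v, hv => by
    simp only [exactly, Bool.and_eq_true, beq_iff_eq] at h
    have ih := exactly_count l (acc ||| m) h.2 v hv
    have hd : (acc.testBit v && m.testBit v) = false := by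
      rw [← Nat.testBit_and, h.1, Nat.zero_testBit]
    rw [List.countP_cons]
    rw [Nat.testBit_or] at ih
    cases h1 : acc.testBit v <;> cases h2 : m.testBit v <;> simp_all

theorem slotList_nodup : slotList.Nodup := by decide +kernel

theorem slotList_mem : ∀ i : Slot, i ∈ slotList := by decide +kernel

/-- Bit `v` of the class of `x`. -/
def bitN (x v : ℕ) : Bool := (maskN (x % 1800)).testBit (v % 60)

theorem colN_mod_lt (S : Shape) (i : Slot) : colN S i % 60 < 60 := Nat.mod_lt _ (by norm_num)

theorem unique_of_checks {S : Shape} (hS : ∀ r < 18, checkBlock S r = true) {n v : ℕ}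
    (hn : n < 1800) (hv : v < 60) :
    ∃! i : Slot, bitN (n + 3600 - cellN S i) (v + 60 - colN S i % 60) = true := by
  have hb := hS (n / 100) (by omega)
  simp only [checkBlock, List.all_eq_true, List.mem_range] at hb
  have hc := exactly_count _ _ (hb (n % 100) (Nat.mod_lt _ (by norm_num))) v hv
  rw [Nat.div_add_mod n 100, seenAt, List.countP_map, Nat.zero_testBit] at hc
  simp only [Bool.false_eq_true, if_false, add_zero] at hc
  rw [List.countP_eq_length_filter, List.length_eq_one_iff] at hc
  obtain ⟨i, hi⟩ := hc
  have key : ∀ j : Slot, bitN (n + 3600 - cellN S j) (v + 60 - colN S j % 60) = true ↔ j = i := by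
    intro j
    have hm : j ∈ slotList.filter ((fun m => m.testBit v) ∘ fun i =>
        rot (maskN ((n + 3600 - cellN S i) % 1800)) (colN S i % 60)) ↔ j = i := by
      rw [hi, List.mem_singleton]
    rw [List.mem_filter] at hm
    simp only [Function.comp_apply, slotList_mem j, true_and,
      rot_testBit (maskN_lt _) (colN_mod_lt S j) hv] at hm
    exact hm
  exact ⟨i, (key i).2 rfl, fun j hj => (key j).1 hj⟩

theorem pair_agree : ∀ x < 900,
    maskN x = maskN (x + 900) ∨ maskN x = fullMask ∨ maskN (x + 900) = fullMask := by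
  decide +kernel

/-- Point `(x, v)` of the mixed solution on `ℤ × ℤ`, with periods `1800` and `60`. -/
def Mem (x v : ℤ) : Prop := bitN (x % 1800).toNat (v % 60).toNat = true

/-- All colours over `x`. -/
def Full (x : ℤ) : Prop := maskN (x % 1800).toNat = fullMask

theorem mem_congr {x x' v v' : ℤ} (hx : x % 1800 = x' % 1800) (hv : v % 60 = v' % 60) :
    Mem x v ↔ Mem x' v' := by
  rw [Mem, Mem, hx, hv]

theorem mem_iff (x v : ℤ) : Mem x v ↔ (maskN (x % 1800).toNat).testBit (v % 60).toNat = true := by
  rw [Mem, bitN, Nat.mod_eq_of_lt (show (x % 1800).toNat < 1800 by omega),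
    Nat.mod_eq_of_lt (show (v % 60).toNat < 60 by omega)]

theorem mem_of_full {x : ℤ} (h : Full x) (v : ℤ) : Mem x v := by
  unfold Full at h
  rw [mem_iff, h, fullMask_testBit]
  exact decide_eq_true (by omega)

theorem mem_add_900 {x : ℤ} (h : ¬Full x) (h' : ¬Full (x + 900)) (v : ℤ) :
    Mem (x + 900) v ↔ Mem x v := by
  have e : maskN (x % 1800).toNat = maskN ((x + 900) % 1800).toNat := by
    unfold Full at h h'
    rcases lt_or_ge (x % 1800) 900 with hx | hx
    · have e' : ((x + 900) % 1800).toNat = (x % 1800).toNat + 900 := by omega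
      rw [e'] at h' ⊢
      exact ((pair_agree _ (by omega)).resolve_right fun o => o.elim h h')
    · have e' : (x % 1800).toNat = ((x + 900) % 1800).toNat + 900 := by omega
      rw [e'] at h ⊢
      exact ((pair_agree _ (by omega)).resolve_right fun o => o.elim h' h).symm
  rw [mem_iff, mem_iff, e]

theorem existsUnique_slot {S : Shape} (hS : ∀ r < 18, checkBlock S r = true)
    (hc : ∀ i, cellN S i ≤ 3600) (n v : ℤ) :
    ∃! i : Slot, Mem (n - (cellN S i : ℤ)) (v - (colN S i : ℤ)) := by
  have h := unique_of_checks hS (n := (n % 1800).toNat) (v := (v % 60).toNat) (by omega) (by omega)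
  have key : ∀ i : Slot, Mem (n - (cellN S i : ℤ)) (v - (colN S i : ℤ)) ↔
      bitN ((n % 1800).toNat + 3600 - cellN S i) ((v % 60).toNat + 60 - colN S i % 60) = true := by
    intro i
    have := hc i
    unfold Mem bitN
    rw [show ((n % 1800).toNat + 3600 - cellN S i) % 1800
        = ((n - (cellN S i : ℤ)) % 1800).toNat % 1800 by omega,
      show ((v % 60).toNat + 60 - colN S i % 60) % 60
        = ((v - (colN S i : ℤ)) % 60).toNat % 60 by omega]
  simpa only [key] using h

theorem cellN_le₁ : ∀ i, cellN sh₁ i ≤ 3600 := by decide +kernel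

theorem cellN_le₂ : ∀ i, cellN sh₂ i ≤ 3600 := by decide +kernel

end Vale.Agent.P043.Plane
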