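import Vale.Agent.P043.Plane.System
import Vale.Agent.P043.Plane.SeedFacts

/-!
The common solution of the three equations: stacks at integer heights over the four atom classes,
single points slanted by `κ` elsewhere.
-/

namespace Vale.Agent.P043.Plane

open Vale.Agent.P043.Two (Piece PieceTiles colIdx)

/-- The common solution. -/
def sol (κ : ℝ) : Set (ℤ × ℝ) :=
  {p | (Full p.1 ∧ ∃ k : ℤ, p.2 = k) ∨
    (¬Full p.1 ∧ ∃ v : ℤ, Mem p.1 v ∧ p.2 = κ * p.1 + v)}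

theorem mem_sol_full {κ : ℝ} {x : ℤ} {a : ℝ} (h : Full x) :
    (x, a) ∈ sol κ ↔ ∃ k : ℤ, a = k :=
  ⟨fun hm => hm.elim (fun h' => h'.2) fun h' => absurd h h'.1, fun hk => .inl ⟨h, hk⟩⟩

theorem mem_sol_single {κ : ℝ} {x : ℤ} {a : ℝ} (h : ¬Full x) :
    (x, a) ∈ sol κ ↔ ∃ v : ℤ, Mem x v ∧ a = κ * x + v :=
  ⟨fun hm => hm.elim (fun h' => absurd h'.1 h) fun h' => h'.2, fun hk => .inr ⟨h, hk⟩⟩

theorem exists_mem {κ : ℝ} {x : ℤ} {a : ℝ} (h : (x, a) ∈ sol κ) : ∃ v, Mem x v := by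
  rcases h with ⟨hf, -⟩ | ⟨-, v, hv, -⟩
  · exact ⟨0, mem_of_full hf 0⟩
  · exact ⟨v, hv⟩

/-- A full contributor is alone in its column. -/
theorem eq_of_full {S : Shape} (hu : ∀ n v : ℤ, ∃! i : Slot,
    Mem (n - (cellN S i : ℤ)) (v - (colN S i : ℤ))) {κ : ℝ} {n : ℤ} {i j : Slot}
    (hi : Full (n - (cellN S i : ℤ))) {x : ℤ} {a : ℝ}
    (hx : x % 1800 = (n - (cellN S j : ℤ)) % 1800) (hj : (x, a) ∈ sol κ) : j = i := by
  obtain ⟨v, hv⟩ := exists_mem hj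
  exact (hu n (v + colN S j)).unique ((mem_congr hx (by omega)).1 hv) (mem_of_full hi _)

theorem exists_piece {ι : Type*} {P : ι → Piece} {A : Set (ℤ × ℝ)}
    (h : ∀ (n : ℤ) (t : ℝ), ∃! q : ι × ℝ,
      q ∈ colIdx P A n ∧ q.2 + (P q.1).lo ≤ t ∧ t < q.2 + (P q.1).lo + (P q.1).len) :
    PieceTiles P A := by
  intro n
  refine ⟨fun i hi j hj t h1 h2 h3 h4 => (h n t).unique ⟨hi, h1.le, h2⟩ ⟨hj, h3.le, h4⟩,
    fun a b hab => ?_⟩
  obtain ⟨q, ⟨hq, h1, h2⟩, -⟩ := h n ((a + b) / 2)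
  have hlt : (a + b) / 2 < min b (q.2 + (P q.1).lo + (P q.1).len) := lt_min (by linarith) h2
  have := min_le_left b (q.2 + (P q.1).lo + (P q.1).len)
  have := min_le_right b (q.2 + (P q.1).lo + (P q.1).len)
  exact ⟨q, hq, ((a + b) / 2 + min b (q.2 + (P q.1).lo + (P q.1).len)) / 2, by linarith,
    by linarith, by linarith, by linarith⟩

/-- Both line tiles are solved. -/
theorem line_sol {S : Shape} (hu : ∀ n v : ℤ, ∃! i : Slot,
    Mem (n - (cellN S i : ℤ)) (v - (colN S i : ℤ))) (κ : ℝ) :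
    PieceTiles (lineT κ S) (sol κ) := by
  refine exists_piece fun n t => ?_
  by_cases hF : ∃ i, Full (n - (cellN S i : ℤ))
  · obtain ⟨i, hi⟩ := hF
    set o : ℝ := κ * cellN S i + colN S i with ho
    refine ⟨(i, (⌊t - o⌋ : ℤ)), ⟨(mem_sol_full hi).2 ⟨_, rfl⟩, ?_, ?_⟩, ?_⟩
    · show ((⌊t - o⌋ : ℤ) : ℝ) + o ≤ t
      linarith [Int.floor_le (t - o)]
    · show t < ((⌊t - o⌋ : ℤ) : ℝ) + o + 1
      linarith [Int.lt_floor_add_one (t - o)]
    rintro ⟨j, a⟩ ⟨hm, q1, q2⟩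
    change (n - (cellN S j : ℤ), a) ∈ sol κ at hm
    obtain rfl := eq_of_full hu hi rfl hm
    obtain ⟨k, rfl⟩ := (mem_sol_full hi).1 hm
    change (k : ℝ) + o ≤ t at q1
    change t < (k : ℝ) + o + 1 at q2
    rw [(Int.floor_eq_iff (z := k)).2 ⟨by linarith, by linarith⟩]
  · push Not at hF
    set w : ℤ := ⌊t - κ * n⌋ with hw
    obtain ⟨i, hi, hiu⟩ := hu n w
    refine ⟨(i, κ * ((n - (cellN S i : ℤ) : ℤ) : ℝ) + ((w - colN S i : ℤ) : ℝ)),
      ⟨(mem_sol_single (hF i)).2 ⟨_, hi, rfl⟩, ?_, ?_⟩, ?_⟩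
    · show κ * ((n - (cellN S i : ℤ) : ℤ) : ℝ) + ((w - colN S i : ℤ) : ℝ)
        + (κ * cellN S i + colN S i) ≤ t
      push_cast
      linarith [Int.floor_le (t - κ * n), mul_sub κ (n : ℝ) (cellN S i : ℝ)]
    · show t < κ * ((n - (cellN S i : ℤ) : ℤ) : ℝ) + ((w - colN S i : ℤ) : ℝ)
        + (κ * cellN S i + colN S i) + 1
      push_cast
      linarith [Int.lt_floor_add_one (t - κ * n), mul_sub κ (n : ℝ) (cellN S i : ℝ)]
    rintro ⟨j, a⟩ ⟨hm, q1, q2⟩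
    change (n - (cellN S j : ℤ), a) ∈ sol κ at hm
    obtain ⟨v, hv, rfl⟩ := (mem_sol_single (hF j)).1 hm
    simp only [lineT] at q1 q2
    push_cast at q1 q2
    have e : w = v + colN S j := by
      rw [hw, Int.floor_eq_iff]
      push_cast
      constructor <;> linarith [mul_sub κ (n : ℝ) (cellN S j : ℝ)]
    obtain rfl : j = i := hiu j (by
      show Mem (n - (cellN S j : ℤ)) (w - (colN S j : ℤ))
      rw [e, show v + (colN S j : ℤ) - colN S j = v by ring]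
      exact hv)
    rw [e, show v + (colN S j : ℤ) - colN S j = v by ring]

theorem hu₁ (n v : ℤ) : ∃! i : Slot, Mem (n - (cellN sh₁ i : ℤ)) (v - (colN sh₁ i : ℤ)) :=
  existsUnique_slot checks₁ cellN_le₁ n v

theorem hu₂ (n v : ℤ) : ∃! i : Slot, Mem (n - (cellN sh₂ i : ℤ)) (v - (colN sh₂ i : ℤ)) :=
  existsUnique_slot checks₂ cellN_le₂ n v

/-- A piece of the split tile over column `n`, translated by `a`, whose interval contains `t`. -/
def Hits (κ : ℝ) (n : ℤ) (t : ℝ) (q : (Slot ⊕ Fin 2) × ℝ) : Prop :=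
  q ∈ colIdx (splitT κ) (sol κ) n ∧ q.2 + (splitT κ q.1).lo ≤ t ∧
    t < q.2 + (splitT κ q.1).lo + (splitT κ q.1).len

theorem split_cases {κ : ℝ} {n : ℤ} {t a : ℝ} {q : Slot ⊕ Fin 2} (h : Hits κ n t (q, a)) :
    (q = .inl i₀ ∧ (n, a) ∈ sol κ ∧ a ≤ t ∧ t < a + (1 - 1800 * κ)) ∨
    (q = .inl i₉ ∧ (n + 900, a) ∈ sol κ ∧ a + (1 - 2700 * κ) ≤ t ∧ t < a + (1 - 900 * κ)) ∨
    (∃ i, i ≠ i₀ ∧ i ≠ i₉ ∧ q = .inl i ∧ (n - (cellN sh₁ i : ℤ), a) ∈ sol κ ∧
      a + (κ * cellN sh₁ i + colN sh₁ i) ≤ t ∧ t < a + (κ * cellN sh₁ i + colN sh₁ i) + 1) ∨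
    (q = .inr 0 ∧ (n + 1800, a) ∈ sol κ ∧ a + (15 - 1800 * κ) ≤ t ∧ t < a + 15) ∨
    (q = .inr 1 ∧ (n + 2700, a) ∈ sol κ ∧ a + (15 - 900 * κ) ≤ t ∧
      t < a + (16 - 2700 * κ)) := by
  obtain ⟨hm, h1, h2⟩ := h
  change (n - (splitT κ q).cell, a) ∈ sol κ at hm
  dsimp only at h1 h2
  rcases q with i | j
  · by_cases e0 : i = i₀
    · subst e0
      simp only [splitT, if_pos, sub_zero] at hm h1 h2
      exact .inl ⟨rfl, hm, by linarith, by linarith⟩
    · by_cases e9 : i = i₉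
      · subst e9
        simp only [splitT, if_neg e0, if_pos, sub_neg_eq_add] at hm h1 h2
        exact .inr (.inl ⟨rfl, hm, by linarith, by linarith⟩)
      · simp only [splitT, if_neg e0, if_neg e9, lineT] at hm h1 h2
        exact .inr (.inr (.inl ⟨i, e0, e9, rfl, hm, h1, h2⟩))
  · fin_cases j
    · simp [splitT] at hm h1 h2
      exact .inr (.inr (.inr (.inl ⟨rfl, hm, by linarith, by linarith⟩)))
    · simp [splitT] at hm h1 h2
      exact .inr (.inr (.inr (.inr ⟨rfl, hm, by linarith, by linarith⟩)))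

theorem hits_A {κ : ℝ} {n : ℤ} {t a : ℝ} (hm : (n, a) ∈ sol κ) (h1 : a ≤ t)
    (h2 : t < a + (1 - 1800 * κ)) : Hits κ n t (.inl i₀, a) := by
  refine ⟨?_, ?_, ?_⟩
  · show (n - (splitT κ (.inl i₀)).cell, a) ∈ sol κ
    simpa [splitT] using hm
  · simp [splitT]; linarith
  · simp [splitT]; linarith

theorem hits_C {κ : ℝ} {n : ℤ} {t a : ℝ} (hm : (n + 900, a) ∈ sol κ)
    (h1 : a + (1 - 2700 * κ) ≤ t) (h2 : t < a + (1 - 900 * κ)) :
    Hits κ n t (.inl i₉, a) := by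
  have e : i₉ ≠ i₀ := by decide
  refine ⟨?_, ?_, ?_⟩
  · show (n - (splitT κ (.inl i₉)).cell, a) ∈ sol κ
    simpa [splitT, e] using hm
  · simp [splitT, e]; linarith
  · simp [splitT, e]; linarith

theorem hits_B {κ : ℝ} {n : ℤ} {t a : ℝ} (hm : (n + 1800, a) ∈ sol κ)
    (h1 : a + (15 - 1800 * κ) ≤ t) (h2 : t < a + 15) : Hits κ n t (.inr 0, a) := by
  refine ⟨?_, ?_, ?_⟩
  · show (n - (splitT κ (.inr 0)).cell, a) ∈ sol κ
    simpa [splitT] using hm
  · simp [splitT]; linarith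
  · simp [splitT]; linarith

theorem hits_E {κ : ℝ} {n : ℤ} {t a : ℝ} (hm : (n + 2700, a) ∈ sol κ)
    (h1 : a + (15 - 900 * κ) ≤ t) (h2 : t < a + (16 - 2700 * κ)) :
    Hits κ n t (.inr 1, a) := by
  refine ⟨?_, ?_, ?_⟩
  · show (n - (splitT κ (.inr 1)).cell, a) ∈ sol κ
    simpa [splitT] using hm
  · simp [splitT]; linarith
  · simp [splitT]; linarith

theorem hits_line {κ : ℝ} {n : ℤ} {t a : ℝ} {i : Slot} (e0 : i ≠ i₀) (e9 : i ≠ i₉)
    (hm : (n - (cellN sh₁ i : ℤ), a) ∈ sol κ)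
    (h1 : a + (κ * cellN sh₁ i + colN sh₁ i) ≤ t)
    (h2 : t < a + (κ * cellN sh₁ i + colN sh₁ i) + 1) : Hits κ n t (.inl i, a) := by
  refine ⟨?_, ?_, ?_⟩
  · show (n - (splitT κ (.inl i)).cell, a) ∈ sol κ
    simpa [splitT, e0, e9, lineT] using hm
  · simp [splitT, e0, e9, lineT]; linarith
  · simp [splitT, e0, e9, lineT]; linarith

variable {κ : ℝ}

theorem cells : (cellN sh₁ i₀ : ℤ) = 0 ∧ (colN sh₁ i₀ : ℤ) = 0 ∧ (cellN sh₁ i₉ : ℤ) = 900 ∧
    (colN sh₁ i₉ : ℤ) = 15 := by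
  simp [cellN_zero, cellN_nine, sh₁]

/-- The split tile is solved. -/
theorem split_sol (h0 : 0 < κ) (h1 : 1800 * κ < 1) : PieceTiles (splitT κ) (sol κ) := by
  refine exists_piece fun n t => ?_
  show ∃! q, Hits κ n t q
  obtain ⟨c0, d0, c9, d9⟩ := cells
  have hA : n % 1800 = (n - (cellN sh₁ i₀ : ℤ)) % 1800 := by omega
  have hC : (n + 900) % 1800 = (n - (cellN sh₁ i₉ : ℤ)) % 1800 := by omega
  have hB : (n + 1800) % 1800 = (n - (cellN sh₁ i₀ : ℤ)) % 1800 := by omega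
  have hE : (n + 2700) % 1800 = (n - (cellN sh₁ i₉ : ℤ)) % 1800 := by omega
  have full_congr : ∀ {x y : ℤ}, x % 1800 = y % 1800 → (Full x ↔ Full y) := fun h => by
    rw [Full, Full, h]
  have ne90 : i₉ ≠ i₀ := by decide
  by_cases hF : ∃ i, Full (n - (cellN sh₁ i : ℤ))
  · obtain ⟨i, hi⟩ := hF
    have only : ∀ {j : Slot} {x : ℤ} {a : ℝ}, x % 1800 = (n - (cellN sh₁ j : ℤ)) % 1800 →
        (x, a) ∈ sol κ → j = i := fun hx hj => eq_of_full hu₁ hi hx hj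
    by_cases e0 : i = i₀
    · subst e0
      have fA : Full n := (full_congr hA).2 hi
      have fB : Full (n + 1800) := (full_congr hB).2 hi
      have hk1 := Int.floor_le t
      have hk2 := Int.lt_floor_add_one t
      have uniq : ∀ q a, Hits κ n t (q, a) →
          (t < ⌊t⌋ + (1 - 1800 * κ) → q = .inl i₀ ∧ a = (⌊t⌋ : ℝ)) ∧
          ((⌊t⌋ : ℝ) + (1 - 1800 * κ) ≤ t → q = .inr 0 ∧ a = ((⌊t⌋ - 14 : ℤ) : ℝ)) := by
        intro q a hq
        rcases split_cases hq with ⟨rfl, hm, q1, q2⟩ | ⟨-, hm, -⟩ | ⟨j, j0, -, -, hm, -⟩ |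
          ⟨rfl, hm, q1, q2⟩ | ⟨-, hm, -⟩
        · obtain ⟨k, rfl⟩ := (mem_sol_full fA).1 hm
          obtain rfl : ⌊t⌋ = k := Int.floor_eq_iff.2 ⟨q1, by linarith⟩
          exact ⟨fun _ => ⟨rfl, rfl⟩, fun h => absurd h (not_le.2 q2)⟩
        · exact absurd (only hC hm) ne90
        · exact absurd (only rfl hm) j0
        · obtain ⟨k, rfl⟩ := (mem_sol_full fB).1 hm
          obtain e : ⌊t⌋ = k + 14 := Int.floor_eq_iff.2 (by push_cast; constructor <;> linarith)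
          rw [e]
          push_cast
          exact ⟨fun h => absurd h (not_lt.2 (by linarith)), fun _ => ⟨rfl, by ring⟩⟩
        · exact absurd (only hE hm) ne90
      rcases lt_or_ge t ((⌊t⌋ : ℝ) + (1 - 1800 * κ)) with hlt | hge
      · exact ⟨_, hits_A ((mem_sol_full fA).2 ⟨_, rfl⟩) hk1 hlt, fun ⟨q, a⟩ hq => by
          obtain ⟨rfl, rfl⟩ := (uniq q a hq).1 hlt; rfl⟩
      · refine ⟨(.inr 0, ((⌊t⌋ - 14 : ℤ) : ℝ)), hits_B ((mem_sol_full fB).2 ⟨_, rfl⟩) ?_ ?_,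
          fun ⟨q, a⟩ hq => by obtain ⟨rfl, rfl⟩ := (uniq q a hq).2 hge; rfl⟩
        · push_cast; linarith
        · push_cast; linarith
    by_cases e9 : i = i₉
    · subst e9
      have fC : Full (n + 900) := (full_congr hC).2 hi
      have fE : Full (n + 2700) := (full_congr hE).2 hi
      set m : ℤ := ⌊t + 900 * κ⌋ with hm
      have hk1 := Int.floor_le (t + 900 * κ)
      have hk2 := Int.lt_floor_add_one (t + 900 * κ)
      rw [← hm] at hk1 hk2
      have uniq : ∀ q a, Hits κ n t (q, a) →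
          ((m : ℝ) + (1 - 1800 * κ) ≤ t + 900 * κ → q = .inl i₉ ∧ a = (m : ℝ)) ∧
          (t + 900 * κ < m + (1 - 1800 * κ) → q = .inr 1 ∧ a = ((m - 15 : ℤ) : ℝ)) := by
        intro q a hq
        rcases split_cases hq with ⟨-, hm', -⟩ | ⟨rfl, hm', q1, q2⟩ | ⟨j, -, j9, -, hm', -⟩ |
          ⟨-, hm', -⟩ | ⟨rfl, hm', q1, q2⟩
        · exact absurd (only hA hm').symm ne90
        · obtain ⟨k, rfl⟩ := (mem_sol_full fC).1 hm'
          have e : m = k := Int.floor_eq_iff.2 ⟨by linarith, by linarith⟩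
          rw [e]
          exact ⟨fun _ => ⟨rfl, rfl⟩, fun h => absurd h (not_lt.2 (by linarith))⟩
        · exact absurd (only rfl hm') j9
        · exact absurd (only hB hm').symm ne90
        · obtain ⟨k, rfl⟩ := (mem_sol_full fE).1 hm'
          have e : m = k + 15 := Int.floor_eq_iff.2 (by push_cast; constructor <;> linarith)
          rw [e]
          push_cast
          exact ⟨fun h => absurd h (not_le.2 (by linarith)), fun _ => ⟨rfl, by ring⟩⟩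
      rcases lt_or_ge (t + 900 * κ) ((m : ℝ) + (1 - 1800 * κ)) with hlt | hge
      · refine ⟨(.inr 1, ((m - 15 : ℤ) : ℝ)), hits_E ((mem_sol_full fE).2 ⟨_, rfl⟩) ?_ ?_,
          fun ⟨q, a⟩ hq => by obtain ⟨rfl, rfl⟩ := (uniq q a hq).2 hlt; rfl⟩
        · push_cast; linarith
        · push_cast; linarith
      · exact ⟨(.inl i₉, (m : ℝ)),
          hits_C ((mem_sol_full fC).2 ⟨_, rfl⟩) (by linarith) (by linarith),
          fun ⟨q, a⟩ hq => by obtain ⟨rfl, rfl⟩ := (uniq q a hq).1 hge; rfl⟩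
    set o : ℝ := κ * cellN sh₁ i + colN sh₁ i with ho
    refine ⟨(.inl i, (⌊t - o⌋ : ℤ)), hits_line e0 e9 ((mem_sol_full hi).2 ⟨_, rfl⟩)
      (by linarith [Int.floor_le (t - o)]) (by linarith [Int.lt_floor_add_one (t - o)]), ?_⟩
    rintro ⟨q, a⟩ hq
    rcases split_cases hq with ⟨-, hm, -⟩ | ⟨-, hm, -⟩ | ⟨j, -, -, rfl, hm, q1, q2⟩ |
      ⟨-, hm, -⟩ | ⟨-, hm, -⟩
    · exact absurd (only hA hm).symm e0
    · exact absurd (only hC hm).symm e9
    · obtain rfl := only rfl hm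
      obtain ⟨k, rfl⟩ := (mem_sol_full hi).1 hm
      rw [(Int.floor_eq_iff (z := k)).2 ⟨by linarith, by linarith⟩]
    · exact absurd (only hB hm).symm e0
    · exact absurd (only hE hm).symm e9
  push Not at hF
  have nA : ¬Full n := fun h => hF i₀ ((full_congr hA).1 h)
  have nC : ¬Full (n + 900) := fun h => hF i₉ ((full_congr hC).1 h)
  have nB : ¬Full (n + 1800) := fun h => hF i₀ ((full_congr hB).1 h)
  have nE : ¬Full (n + 2700) := fun h => hF i₉ ((full_congr hE).1 h)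
  set w : ℤ := ⌊t - κ * n⌋ with hw
  have hw1 := Int.floor_le (t - κ * n)
  have hw2 := Int.lt_floor_add_one (t - κ * n)
  rw [← hw] at hw1 hw2
  obtain ⟨i, hi, hiu⟩ := hu₁ n w
  have agree : ∀ v, Mem (n + 900) v ↔ Mem n v := fun v => mem_add_900 nA nC v
  have slot0 : ∀ {v}, w = v → Mem n v → i = i₀ := fun e hv => by
    refine (hiu i₀ ?_).symm
    subst e
    exact (mem_congr (by omega) (by omega)).1 hv
  have slot9 : ∀ {v}, w = v + 15 → Mem (n + 900) v → i = i₉ := fun e hv => by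
    refine (hiu i₉ ?_).symm
    exact (mem_congr (by omega) (by omega)).1 hv
  have uniq : ∀ q a, Hits κ n t (q, a) →
      (i = i₀ → t - κ * n < w + (1 - 1800 * κ) → q = .inl i₀ ∧ a = κ * n + w) ∧
      (i = i₀ → (w : ℝ) + (1 - 1800 * κ) ≤ t - κ * n →
        q = .inl i₉ ∧ a = κ * ((n + 900 : ℤ) : ℝ) + w) ∧
      (i = i₉ → t - κ * n < w + 1800 * κ →
        q = .inr 0 ∧ a = κ * ((n + 1800 : ℤ) : ℝ) + ((w - 15 : ℤ) : ℝ)) ∧
      (i = i₉ → (w : ℝ) + 1800 * κ ≤ t - κ * n →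
        q = .inr 1 ∧ a = κ * ((n + 2700 : ℤ) : ℝ) + ((w - 15 : ℤ) : ℝ)) ∧
      (i ≠ i₀ → i ≠ i₉ → q = .inl i ∧
        a = κ * ((n - (cellN sh₁ i : ℤ) : ℤ) : ℝ) + ((w - colN sh₁ i : ℤ) : ℝ)) := by
    intro q a hq
    rcases split_cases hq with ⟨rfl, hm, q1, q2⟩ | ⟨rfl, hm, q1, q2⟩ |
      ⟨j, j0, j9, rfl, hm, q1, q2⟩ | ⟨rfl, hm, q1, q2⟩ | ⟨rfl, hm, q1, q2⟩
    · obtain ⟨v, hv, rfl⟩ := (mem_sol_single nA).1 hm
      have e : w = v := Int.floor_eq_iff.2 ⟨by linarith, by linarith⟩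
      obtain rfl := slot0 e hv
      rw [e]
      refine ⟨fun _ _ => ⟨rfl, rfl⟩, fun _ h => absurd h (not_le.2 ?_), fun h => absurd h.symm ne90,
        fun h => absurd h.symm ne90, fun h => absurd rfl h⟩
      linarith
    · obtain ⟨v, hv, rfl⟩ := (mem_sol_single nC).1 hm
      push_cast at q1 q2
      have e : w = v := Int.floor_eq_iff.2 ⟨by linarith, by linarith⟩
      obtain rfl := slot0 e ((agree v).1 hv)
      rw [e]
      refine ⟨fun _ h => absurd h (not_lt.2 ?_), fun _ _ => ⟨rfl, rfl⟩, fun h => absurd h.symm ne90,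
        fun h => absurd h.symm ne90, fun h => absurd rfl h⟩
      linarith
    · obtain ⟨v, hv, rfl⟩ := (mem_sol_single (hF j)).1 hm
      push_cast at q1 q2
      have e : w = v + colN sh₁ j := Int.floor_eq_iff.2 (by
        push_cast
        constructor <;> linarith [mul_sub κ (n : ℝ) (cellN sh₁ j : ℝ)])
      obtain rfl : j = i := hiu j ((mem_congr rfl (by omega)).1 hv)
      rw [show w - (colN sh₁ j : ℤ) = v by omega]
      exact ⟨fun h => absurd h j0, fun h => absurd h j0, fun h => absurd h j9,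
        fun h => absurd h j9, fun _ _ => ⟨rfl, rfl⟩⟩
    · obtain ⟨v, hv, rfl⟩ := (mem_sol_single nB).1 hm
      push_cast at q1 q2
      have e : w = v + 15 := Int.floor_eq_iff.2 (by push_cast; constructor <;> linarith)
      obtain rfl := slot9 e ((agree v).2 ((mem_congr (by omega) rfl).1 hv))
      rw [e, show v + 15 - 15 = v by ring]
      refine ⟨fun h => absurd h ne90, fun h => absurd h ne90, fun _ _ => ⟨rfl, rfl⟩,
        fun _ h => absurd h (not_le.2 ?_), fun _ h => absurd rfl h⟩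
      push_cast
      linarith
    · obtain ⟨v, hv, rfl⟩ := (mem_sol_single nE).1 hm
      push_cast at q1 q2
      have e : w = v + 15 := Int.floor_eq_iff.2 (by push_cast; constructor <;> linarith)
      obtain rfl := slot9 e ((mem_congr (by omega) rfl).1 hv)
      rw [e, show v + 15 - 15 = v by ring]
      refine ⟨fun h => absurd h ne90, fun h => absurd h ne90, fun _ h => absurd h (not_lt.2 ?_),
        fun _ _ => ⟨rfl, rfl⟩, fun _ h => absurd rfl h⟩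
      push_cast
      linarith
  by_cases e0 : i = i₀
  · subst e0
    have hv : Mem n w := (mem_congr (by omega) (by omega)).1 hi
    rcases lt_or_ge (t - κ * n) ((w : ℝ) + (1 - 1800 * κ)) with hlt | hge
    · exact ⟨(.inl i₀, κ * n + w),
        hits_A ((mem_sol_single nA).2 ⟨_, hv, rfl⟩) (by linarith) (by linarith),
        fun ⟨q, a⟩ hq => by obtain ⟨rfl, rfl⟩ := (uniq q a hq).1 rfl hlt; rfl⟩
    · exact ⟨(.inl i₉, κ * ((n + 900 : ℤ) : ℝ) + w),
        hits_C ((mem_sol_single nC).2 ⟨_, (agree w).2 hv, rfl⟩) (by push_cast; linarith)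
          (by push_cast; linarith),
        fun ⟨q, a⟩ hq => by obtain ⟨rfl, rfl⟩ := (uniq q a hq).2.1 rfl hge; rfl⟩
  by_cases e9 : i = i₉
  · subst e9
    have hv : Mem (n + 900) (w - 15) := (mem_congr (by omega) (by omega)).1 hi
    rcases lt_or_ge (t - κ * n) ((w : ℝ) + 1800 * κ) with hlt | hge
    · exact ⟨(.inr 0, κ * ((n + 1800 : ℤ) : ℝ) + ((w - 15 : ℤ) : ℝ)),
        hits_B ((mem_sol_single nB).2 ⟨_, (mem_congr (by omega) rfl).2 ((agree _).1 hv), rfl⟩)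
          (by push_cast; linarith) (by push_cast; linarith),
        fun ⟨q, a⟩ hq => by obtain ⟨rfl, rfl⟩ := (uniq q a hq).2.2.1 rfl hlt; rfl⟩
    · exact ⟨(.inr 1, κ * ((n + 2700 : ℤ) : ℝ) + ((w - 15 : ℤ) : ℝ)),
        hits_E ((mem_sol_single nE).2 ⟨_, (mem_congr (by omega) rfl).2 hv, rfl⟩)
          (by push_cast; linarith) (by push_cast; linarith),
        fun ⟨q, a⟩ hq => by obtain ⟨rfl, rfl⟩ := (uniq q a hq).2.2.2.1 rfl hge; rfl⟩
  exact ⟨(.inl i, κ * ((n - (cellN sh₁ i : ℤ) : ℤ) : ℝ) + ((w - colN sh₁ i : ℤ) : ℝ)),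
    hits_line e0 e9 ((mem_sol_single (hF i)).2 ⟨_, hi, rfl⟩)
      (by push_cast; linarith [mul_sub κ (n : ℝ) (cellN sh₁ i : ℝ)])
      (by push_cast; linarith [mul_sub κ (n : ℝ) (cellN sh₁ i : ℝ)]),
    fun ⟨q, a⟩ hq => by obtain ⟨rfl, rfl⟩ := (uniq q a hq).2.2.2.2 e0 e9; rfl⟩

/-- The plane system has a solution. -/
theorem exists_sys (h0 : 0 < κ) (h1 : 1800 * κ < 1) : ∃ A, Sys κ A :=
  ⟨sol κ, line_sol hu₁ κ, line_sol hu₂ κ, split_sol h0 h1⟩

end Vale.Agent.P043.Plane
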