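import Vale.Agent.P043.Two.Main
import Vale.Agent.P043.Plane.NoPeriod
import Vale.Agent.P043.Plane.Solution

/-!
The plane system as a seed, and the aperiodic tile of the plane it gives.
-/

namespace Vale.Agent.P043.Plane

open MeasureTheory
open Vale.Agent.P043.Aperiodic (RTiles RPeriodic)

theorem isSeed {κ : ℝ} (h0 : 0 < κ) (h1 : 1800 * κ < 1) :
    Two.Seed (lineT κ sh₁) (tiles κ) := by
  refine ⟨fun _ => rfl, fun k => ?_, fun k => ?_⟩
  · fin_cases k
    · rintro (i | i)
      · simp [tiles, lineT]
      · exact i.elim0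
    · rintro (i | j)
      · simp only [tiles, splitT]
        split_ifs <;> simp [lineT] <;> linarith
      · fin_cases j <;> simp [tiles, splitT] <;> linarith
  · fin_cases k
    · simp [tiles, lineT, Fintype.sum_sum_type]
    · have hne : i₉ ≠ i₀ := by decide
      have e : ∀ i : Slot, (splitT κ (.inl i)).len =
          1 + ((if i = i₀ then -(1800 * κ) else 0) + if i = i₉ then 1800 * κ - 1 else 0) := by
        intro i
        simp only [splitT]
        by_cases a : i = i₀
        · subst a; simp [Ne.symm hne]; ring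
        · by_cases b : i = i₉ <;> simp [a, b, hne, lineT]
      show ∑ i, (splitT κ i).len = _
      rw [Fintype.sum_sum_type]
      simp only [e, Finset.sum_add_distrib, Finset.sum_ite_eq', Finset.mem_univ, if_true]
      rw [Fin.sum_univ_two]
      simp [splitT]
      ring

/-- **The periodic tiling conjecture fails in the plane.** -/
theorem exists_aperiodic_plane :
    ∃ Ω : Set (Fin 2 → ℝ), MeasurableSet Ω ∧ Bornology.IsBounded Ω ∧ 0 < volume Ω ∧
      (∃ A, RTiles Ω A) ∧ ∀ A, RTiles Ω A → ¬RPeriodic A := by
  have hs : Real.sqrt 2 < 2 := by rw [Real.sqrt_lt' (by norm_num)]; norm_num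
  have hκ : Irrational (Real.sqrt 2 / (3600 : ℕ)) := irrational_sqrt_two.div_natCast (by norm_num)
  set κ := Real.sqrt 2 / (3600 : ℕ) with hdef
  have h0 : 0 < κ := by rw [hdef]; positivity
  have h1 : 1800 * κ < 1 := by rw [hdef]; push_cast; linarith
  obtain ⟨A, hA⟩ := exists_sys h0 h1
  exact Two.exists_aperiodic_two (isSeed h0 h1) ⟨A, solves_of_sys hA⟩ (no_period hκ h0 h1)

end Vale.Agent.P043.Plane
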