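import Mathlib
import Vale.Agent.P043.Plane.Table

/-!
Two cyclic tile shapes on `(ℤ/900) × (ℤ/60)` and the mixture of atoms and single points solving
both, checked by the kernel.
-/

namespace Vale.Agent.P043.Plane

/-- The steps of a twisted product of levels `2 × 3 × 5` and its doubling colour `d`. -/
structure Shape where
  (x₂ y₂ x₃ y₃ x₅ y₅ d : ℕ)

/-- The first shape. -/
def sh₁ : Shape := ⟨225, 15, 100, 20, 180, 12, 15⟩

/-- The second shape. -/
def sh₂ : Shape := ⟨450, 0, 300, 20, 36, 12, 30⟩

/-- The `60` slots: digits of the levels `2`, `3`, `5` and of the doubling. -/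
abbrev Slot : Type := Fin 2 × Fin 3 × Fin 5 × Fin 2

/-- The cell of a slot. -/
def cellN (S : Shape) (i : Slot) : ℕ :=
  (i.1 : ℕ) * S.x₂ + (i.2.1 : ℕ) * S.x₃ + (i.2.2.1 : ℕ) * S.x₅ + 900 * (i.2.2.2 : ℕ)

/-- The colour of a slot. -/
def colN (S : Shape) (i : Slot) : ℕ :=
  (i.1 : ℕ) * S.y₂ + (i.2.1 : ℕ) * S.y₃ + (i.2.2.1 : ℕ) * S.y₅ + S.d * (i.2.2.2 : ℕ)

/-- All colours. -/
def fullMask : ℕ := 2 ^ 60 - 1

/-- The mask of a class modulo `1800`: all colours on the four atoms, the table elsewhere. -/
def maskN (x : ℕ) : ℕ :=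
  if x = 0 || x = 9 || x = 669 || x = 789 then fullMask
  else (seedTable >>> (60 * (x % 900))) &&& fullMask

/-- A mask rotated by a colour. -/
def rot (m t : ℕ) : ℕ := ((m <<< t) ||| (m >>> (60 - t))) &&& fullMask

/-- Masks are pairwise disjoint and cover every colour. -/
def exactly : List ℕ → ℕ → Bool
  | [], acc => acc == fullMask
  | m :: l, acc => (acc &&& m == 0) && exactly l (acc ||| m)

/-- All slots, the slowest first. -/
def slotList : List Slot :=
  (List.finRange 2).flatMap fun a => (List.finRange 3).flatMap fun b =>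
    (List.finRange 5).flatMap fun c => (List.finRange 2).map fun e => (a, b, c, e)

/-- The rotated masks seen from class `n`. -/
def seenAt (S : Shape) (n : ℕ) : List ℕ :=
  slotList.map fun i => rot (maskN ((n + 3600 - cellN S i) % 1800)) (colN S i % 60)

/-- All classes of one block of `100` are covered exactly. -/
def checkBlock (S : Shape) (r : ℕ) : Bool :=
  (List.range 100).all fun j => exactly (seenAt S (100 * r + j)) 0

end Vale.Agent.P043.Plane
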