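import Vale.Agent.P043.Plane.System

/-!
An irrational drift of the phases forces stacks: every column of a solution is empty or carries a
full coset of `ℤ`, so the occupied columns tile `ℤ` by the cells of both shapes.
-/

namespace Vale.Agent.P043.Plane

open Vale.Agent.P043.Two (Piece PieceTiles colIdx)
open Vale.Agent.P043.Three (LineTiles exists_next exists_shift exists_int_diff eq_of_lo_eq)

variable {κ : ℝ} {A : Set (ℤ × ℝ)} {S : Shape}

/-- The columns of a line tile are unit line tiles. -/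
theorem unitCol (h : PieceTiles (lineT κ S) A) (n : ℤ) :
    LineTiles (colIdx (lineT κ S) A n) (fun q => q.2 + (κ * cellN S q.1 + colN S q.1))
      fun _ => 1 :=
  h n

/-- Contributors of one target have phases differing by an integer. -/
theorem phase_eq (h : PieceTiles (lineT κ S) A) {x y : ℤ} {a b : ℝ} {i j : Slot}
    (hx : (x, a) ∈ A) (hy : (y, b) ∈ A) (e : x + cellN S i = y + cellN S j) :
    ∃ k : ℤ, b - κ * y = a - κ * x + k := by
  have hi : (i, a) ∈ colIdx (lineT κ S) A (x + cellN S i) := by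
    simpa [colIdx, lineT] using hx
  have hj : (j, b) ∈ colIdx (lineT κ S) A (x + cellN S i) := by
    simpa [colIdx, lineT, e] using hy
  obtain ⟨k, hk⟩ := exists_int_diff (unitCol h _) hi hj
  refine ⟨k + colN S i - colN S j, ?_⟩
  have e' : (x : ℝ) + cellN S i = y + cellN S j := by exact_mod_cast e
  push_cast
  dsimp only at hk
  linear_combination hk + κ * e'

/-- A column carries the coset of each of its translates. -/
def FullCol (A : Set (ℤ × ℝ)) (x : ℤ) : Prop := ∀ a, (x, a) ∈ A → ∀ k : ℤ, (x, a + k) ∈ A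

/-- Closure under unit steps gives fullness. -/
theorem full_of_step {x : ℤ} (h : ∀ a, (x, a) ∈ A → (x, a + 1) ∈ A ∧ (x, a - 1) ∈ A) :
    FullCol A x := by
  intro a ha k
  induction k using Int.induction_on with
  | zero => simpa using ha
  | succ n ih => have := (h _ ih).1; push_cast at this ⊢; rwa [← add_assoc]
  | pred n ih => have := (h _ ih).2; push_cast at this ⊢; rwa [← add_sub_assoc]

/-- With an irrational drift every column is full. -/
theorem full_all (h : PieceTiles (lineT κ sh₁) A) {M : ℕ} (hM : 0 < M) {τ : ℝ}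
    (hs : Irrational (τ - κ * (1800 * M)))
    (hper : ∀ z a, (z + 1800 * (M : ℤ), a + τ) ∈ A ↔ (z, a) ∈ A) (x : ℤ) : FullCol A x := by
  by_contra hx
  obtain ⟨a, ha, -⟩ : ∃ a, (x, a) ∈ A ∧ True := by
    by_contra hno
    exact hx fun a ha => absurd ⟨a, ha, trivial⟩ hno
  set L : ℤ := 1800 * (M : ℤ) with hL
  have hL0 : 0 < L := by omega
  set C : Set ℤ := {y | ¬FullCol A y ∧ ∃ b, (y, b) ∈ A ∧ ∃ k : ℤ, b - κ * y = a - κ * x + k}
  have shift : ∀ (j : ℤ) z c, (z, c) ∈ A → (z + j * L, c + j * τ) ∈ A := by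
    intro j
    induction j using Int.induction_on with
    | zero => intro z c hc; simpa using hc
    | succ n ih =>
      intro z c hc
      have := (hper _ _).2 (ih z c hc)
      convert this using 2 <;> push_cast <;> ring
    | pred n ih =>
      intro z c hc
      refine (hper _ _).1 ?_
      convert ih z c hc using 2 <;> push_cast <;> ring
  have hfin : C.Finite := by
    refine Set.Finite.of_finite_image (f := fun y => y % L)
      ((Set.finite_Ico 0 L).subset ?_) ?_
    · rintro _ ⟨y, -, rfl⟩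
      exact ⟨Int.emod_nonneg _ hL0.ne', Int.emod_lt_of_pos _ hL0⟩
    · rintro y ⟨-, b, hb, k, hk⟩ y' ⟨-, b', hb', k', hk'⟩ e
      obtain ⟨j, hj⟩ := (Int.modEq_iff_dvd.1 e)
      obtain ⟨i, hi⟩ := phase_eq h (shift j y b hb) hb' (i := i₀) (j := i₀)
        (by rw [show y' = y + j * L by linarith])
      have key : (j : ℝ) * (τ - κ * (1800 * M)) = ((k' - k - i : ℤ) : ℝ) := by
        push_cast [hL] at hi ⊢
        linear_combination hk' - hk - hi
      by_contra hne
      have hj0 : (j : ℝ) ≠ 0 := by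
        intro h0
        have : j = 0 := by exact_mod_cast h0
        subst this
        exact hne (by linarith)
      exact (hs.intCast_mul (by exact_mod_cast hj0)).ne_int _ key
  have hne : C.Nonempty := ⟨x, hx, a, ha, 0, by simp⟩
  obtain ⟨y, hy, hmin⟩ := Set.exists_min_image C id hfin hne
  obtain ⟨hnf, b₀, hb₀, k₀, hk₀⟩ := hy
  refine hnf (full_of_step fun b hb => ?_)
  have h0 : (i₀, b) ∈ colIdx (lineT κ sh₁) A y := by
    simpa [colIdx, lineT, cellN_zero] using hb
  suffices step : ∀ e : ℤ, ∀ q ∈ colIdx (lineT κ sh₁) A y,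
      q.2 + (κ * cellN sh₁ q.1 + colN sh₁ q.1) =
        b + (κ * cellN sh₁ i₀ + colN sh₁ i₀) + e → (y, b + e) ∈ A by
    obtain ⟨⟨p, hp, hp'⟩, ⟨q, hq, hq'⟩⟩ := exists_next (unitCol h y) h0
    exact ⟨by simpa using step 1 p hp (by simpa using hp'),
      by simpa [← sub_eq_add_neg] using step (-1) q hq (by simpa [← sub_eq_add_neg] using hq')⟩
  rintro e ⟨i, d⟩ hd he
  dsimp only at he
  rcases eq_or_ne i i₀ with rfl | hi
  · have : d = b + e := by linarith
    subst this
    simpa [colIdx, lineT, cellN_zero] using hd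
  exfalso
  have hd' : (y - cellN sh₁ i, d) ∈ A := hd
  have hlt : y - cellN sh₁ i < y := by
    have := (cellN_pos hi).1
    omega
  have hfull : FullCol A (y - cellN sh₁ i) := by
    by_contra hnf'
    obtain ⟨l, hl⟩ := phase_eq h (i := i₀) (j := i) hb₀ hd' (by simp [cellN_zero])
    have := hmin _ ⟨hnf', d, hd', k₀ + l, by push_cast at hl ⊢; linarith⟩
    simp only [id] at this
    omega
  have hd'' : (i, d + ((-e : ℤ) : ℝ)) ∈ colIdx (lineT κ sh₁) A y := hfull d hd' (-e)
  exact hi (congrArg Prod.fst (eq_of_lo_eq (unitCol h y) hd'' h0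
    (by dsimp only; push_cast; linarith)))

/-- The occupied columns of a solution with irrational drift tile `ℤ` by both shapes. -/
theorem exists_column_indicator {κ : ℝ} {A : Set (ℤ × ℝ)} (h : Sys κ A) {M : ℕ} (hM : 0 < M)
    {τ : ℝ} (hs : Irrational (τ - κ * (1800 * M)))
    (hper : ∀ z a, (z + 1800 * (M : ℤ), a + τ) ∈ A ↔ (z, a) ∈ A) :
    ∃ f : ℤ → ℕ, (∀ x, f (x + 1800 * (M : ℤ)) = f x) ∧
      ∀ S : Shape, (S = sh₁ ∨ S = sh₂) → ∀ n : ℤ, ∑ i : Slot, f (n - cellN S i) = 1 := by
  classical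
  have hfull := full_all h.l₁ hM hs hper
  refine ⟨fun x => if x ∈ Dom A then 1 else 0, fun x => ?_, fun S hS n => ?_⟩
  · have : x + 1800 * (M : ℤ) ∈ Dom A ↔ x ∈ Dom A := by
      constructor
      · rintro ⟨a, ha⟩
        exact ⟨a - τ, (hper x (a - τ)).1 (by rwa [sub_add_cancel])⟩
      · rintro ⟨a, ha⟩
        exact ⟨a + τ, (hper x a).2 ha⟩
    simp only [this]
  have hT : PieceTiles (lineT κ S) A := by
    rcases hS with rfl | rfl
    · exact h.l₁
    · exact h.l₂
  obtain ⟨⟨i, d⟩, hd, -⟩ := (unitCol hT n).cover 0 1 one_pos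
  have hi : n - (cellN S i : ℤ) ∈ Dom A := ⟨d, hd⟩
  rw [Finset.sum_eq_single i]
  · exact if_pos hi
  · intro j _ hne
    refine if_neg ?_
    rintro ⟨c, hc⟩
    obtain ⟨k, hk⟩ := exists_int_diff (unitCol hT n) hd (j := (j, c)) hc
    have hc' : (j, c + ((-k : ℤ) : ℝ)) ∈ colIdx (lineT κ S) A n := hfull _ c hc (-k)
    exact hne (congrArg Prod.fst (eq_of_lo_eq (unitCol hT n) hc' hd
      (by dsimp only at hk ⊢; push_cast; linarith)))
  · simp

end Vale.Agent.P043.Plane
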