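import Vale.Agent.P043.Two.System
import Vale.Agent.P043.Plane.Seed

/-!
The plane system on `ℤ × ℝ`: two line tiles of `60` unit pieces, slanted by `κ`, and one split tile.

In the split tile the units of the slots `i₀` (cell `0`) and `i₉` (cell `900`) of the first line
tile are cut into four pieces in the cells `0, -1800, -900, -2700`.
-/

namespace Vale.Agent.P043.Plane

open Vale.Agent.P043.Two (Piece PieceTiles)

/-- The slot of cell `0`. -/
def i₀ : Slot := (0, 0, 0, 0)

/-- The slot of cell `900`. -/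
def i₉ : Slot := (0, 0, 0, 1)

/-- The line tile of a shape. -/
noncomputable def lineT (κ : ℝ) (S : Shape) (i : Slot) : Piece :=
  ⟨(cellN S i : ℤ), κ * cellN S i + colN S i, 1⟩

/-- The split tile, with `α = 1800 κ`: the pieces `A`, `C` in the places of the slots `i₀`, `i₉`,
the pieces `B`, `E` in addition. -/
noncomputable def splitT (κ : ℝ) : Slot ⊕ Fin 2 → Piece
  | .inl i =>
    if i = i₀ then ⟨0, 0, 1 - 1800 * κ⟩
    else if i = i₉ then ⟨-900, 1 - 1800 * κ - 900 * κ, 1800 * κ⟩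
    else lineT κ sh₁ i
  | .inr j =>
    if j = 0 then ⟨-1800, 15 - 1800 * κ, 1800 * κ⟩
    else ⟨-2700, 15 - 900 * κ, 1 - 1800 * κ⟩

/-- The index types of the two further tiles. -/
abbrev Idx (k : Fin 2) : Type := Slot ⊕ Fin (2 * (k : ℕ))

/-- The two further tiles: the second line tile and the split tile. -/
noncomputable def tiles (κ : ℝ) : ∀ k : Fin 2, Idx k → Piece
  | 0 => Sum.elim (lineT κ sh₂) Fin.elim0
  | 1 => splitT κ

/-- `A` solves the three equations. -/
structure Sys (κ : ℝ) (A : Set (ℤ × ℝ)) : Prop where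
  l₁ : PieceTiles (lineT κ sh₁) A
  l₂ : PieceTiles (lineT κ sh₂) A
  sp : PieceTiles (splitT κ) A

/-- The columns of a set of translates that carry a translate. -/
def Dom (A : Set (ℤ × ℝ)) : Set ℤ := {x | ∃ a, (x, a) ∈ A}

theorem sys_of_solves {κ : ℝ} {A : Set (ℤ × ℝ)} (h : Two.Solves (lineT κ sh₁) (tiles κ) A) :
    Sys κ A := by
  refine ⟨h.base, fun n => ?_, h.extra 1⟩
  have h2 := h.extra 0 n
  refine ⟨fun i hi j hj t a b c d => ?_, fun a b hab => ?_⟩
  · have := h2.disj (.inl i.1, i.2) hi (.inl j.1, j.2) hj t a b c d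
    exact Prod.ext (Sum.inl.inj (congrArg Prod.fst this)) (congrArg Prod.snd this :)
  · obtain ⟨⟨i, s⟩, hi, t, ht⟩ := h2.cover a b hab
    rcases i with i | i
    · exact ⟨(i, s), hi, t, ht⟩
    · exact i.elim0

theorem solves_of_sys {κ : ℝ} {A : Set (ℤ × ℝ)} (h : Sys κ A) :
    Two.Solves (lineT κ sh₁) (tiles κ) A := by
  refine ⟨h.l₁, fun k => ?_⟩
  fin_cases k
  · intro n
    refine ⟨?_, fun a b hab => ?_⟩
    · rintro ⟨i | i, s⟩ hi ⟨j | j, s'⟩ hj t a b c d
      · have := (h.l₂ n).disj (i, s) hi (j, s') hj t a b c d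
        rw [Prod.mk.injEq] at this
        rw [this.1, this.2]
      all_goals first | exact i.elim0 | exact j.elim0
    · obtain ⟨⟨i, s⟩, hi, t, ht⟩ := (h.l₂ n).cover a b hab
      exact ⟨(.inl i, s), hi, t, ht⟩
  · exact h.sp

theorem cellN_pos {i : Slot} (h : i ≠ i₀) : 0 < cellN sh₁ i ∧ 0 < cellN sh₂ i := by
  revert h; revert i; decide

theorem cellN_zero (S : Shape) : cellN S i₀ = 0 ∧ colN S i₀ = 0 := by simp [cellN, colN, i₀]

theorem cellN_nine (S : Shape) : cellN S i₉ = 900 ∧ colN S i₉ = S.d := by simp [cellN, colN, i₉]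

end Vale.Agent.P043.Plane
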